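import Vale.Agent.P158.NB.Lines.Geo

/-!
# P158 (iv): measurability, translation covariance and resampling of one weight
-/

namespace Vale.Agent.P158.NB.Lines

open Vale.Agent.P158 MeasureTheory Filter Topology
open scoped ENNReal

/-- A finite sequence as a function on `ℕ`. -/
def ext {L : ℕ} (q : Fin (L + 1) → V) : ℕ → V := fun i => q ⟨min i L, by omega⟩

lemma ext_restrict (v : ℕ → V) (L : ℕ) : ∀ i ≤ L, ext (fun j : Fin (L + 1) => v j) i = v i :=
  fun i hi => by simp [ext, min_eq_left hi]

lemma cost_congr' (t : Conf) {v w : ℕ → V} {L : ℕ} (h : ∀ i ≤ L, v i = w i) :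
    cost t v L = cost t w L :=
  Finset.sum_congr rfl fun k hk => by
    rw [Finset.mem_range] at hk
    rw [h k hk.le, h (k + 1) hk]

lemma isPath_congr' {v w : ℕ → V} {L : ℕ} (h : ∀ i ≤ L, v i = w i) (hv : IsPath v L) :
    IsPath w L := fun k hk => by
  rw [← h k hk.le, ← h (k + 1) hk]
  exact hv k hk

lemma isGeo_congr' {t : Conf} {v w : ℕ → V} {L : ℕ} (h : ∀ i ≤ L, v i = w i) (hv : IsGeo t v L) :
    IsGeo t w L := by
  refine ⟨isPath_congr' h hv.1, fun u M hu h0 hM => ?_⟩
  rw [← cost_congr' t h]
  exact hv.2 u M hu (by rw [h0, h 0 (Nat.zero_le _)]) (by rw [hM, h L le_rfl])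

lemma measurable_cost (v : ℕ → V) (L : ℕ) : Measurable fun t : Conf => cost t v L :=
  Finset.measurable_sum _ fun _ _ => measurable_pi_apply _

lemma measurableSet_isGeo (v : ℕ → V) (L : ℕ) : MeasurableSet {t : Conf | IsGeo t v L} := by
  have : {t : Conf | IsGeo t v L} = {t : Conf | IsPath v L ∧ ∀ (M : ℕ) (q : Fin (M + 1) → V),
      IsPath (ext q) M → ext q 0 = v 0 → ext q M = v L → cost t v L ≤ cost t (ext q) M} := by
    ext t
    refine ⟨fun h => ⟨h.1, fun M q => h.2 (ext q) M⟩, fun h => ⟨h.1, fun w M hw h0 hM => ?_⟩⟩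
    have hc := ext_restrict w M
    have := h.2 M (fun j => w j) (isPath_congr' (fun i hi => (hc i hi).symm) hw)
      (by rw [hc 0 (Nat.zero_le _), h0]) (by rw [hc M le_rfl, hM])
    rwa [cost_congr' t hc] at this
  rw [this]
  refine MeasurableSet.inter (MeasurableSet.const _) ?_
  refine measurableSet_setOfPred.2 (Measurable.forall fun M => Measurable.forall fun q =>
    Measurable.forall fun _ => Measurable.forall fun _ => Measurable.forall fun _ => ?_)
  exact measurableSet_setOfPred.1 (measurableSet_le (measurable_cost _ _) (measurable_cost _ _))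

lemma seg_congr {t : Conf} {e : Sym2 V} {k : ℕ} {v w : ℕ → V}
    (h : ∀ i ≤ 2 * k + 1, v i = w i) (hv : Seg t e k v) : Seg t e k w where
  geo := isGeo_congr' h hv.geo
  inj := hv.inj.congr fun i hi => h i hi
  mid := by rw [← h k (by omega), ← h (k + 1) (by omega)]; exact hv.mid

lemma measurableSet_seg (e : Sym2 V) (k : ℕ) (v : ℕ → V) :
    MeasurableSet {t : Conf | Seg t e k v} := by
  have : {t : Conf | Seg t e k v} = {t : Conf | IsGeo t v (2 * k + 1) ∧
      (Set.InjOn v (Set.Iic (2 * k + 1)) ∧ s(v k, v (k + 1)) = e)} :=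
    Set.ext fun t => ⟨fun h => ⟨h.geo, h.inj, h.mid⟩, fun h => ⟨h.1, h.2.1, h.2.2⟩⟩
  rw [this]
  exact (measurableSet_isGeo _ _).inter (MeasurableSet.const _)

lemma measurableSet_wins (e : Sym2 V) (H : ℕ) (w : Fin (2 * H + 2) → V) :
    MeasurableSet {t : Conf | w ∈ wins t e H} := by
  have : {t : Conf | w ∈ wins t e H} = {t : Conf | ∀ k, H ≤ k → ∃ q : Fin (2 * k + 1 + 1) → V,
      Seg t e k (ext q) ∧ ∀ i : Fin (2 * H + 2), ext q (k - H + i) = w i} := by
    ext t
    refine ⟨fun h k hk => ?_, fun h k hk => ?_⟩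
    · obtain ⟨v, hv, hw⟩ := h k hk
      have hc := ext_restrict v (2 * k + 1)
      refine ⟨fun j => v j, seg_congr (fun i hi => (hc i hi).symm) hv, fun i => ?_⟩
      rw [hc _ (by omega), hw]
    · obtain ⟨q, hq, hw⟩ := h k hk
      exact ⟨ext q, hq, hw⟩
  rw [this]
  simp only [Set.ofPred_forall, Set.ofPred_exists]
  exact MeasurableSet.iInter fun k => MeasurableSet.iInter fun _ => MeasurableSet.iUnion fun q =>
    (measurableSet_seg _ _ _).inter (MeasurableSet.const _)

/-- The number of windows of radius `H`. -/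
noncomputable def NH (H : ℕ) (t : Conf) (e : Sym2 V) : ℝ≥0∞ := ((wins t e H).encard : ℝ≥0∞)

lemma measurable_NH (H : ℕ) (e : Sym2 V) : Measurable fun t : Conf => NH H t e := by
  have : (fun t : Conf => NH H t e) =
      fun t => ∑' w, {t : Conf | w ∈ wins t e H}.indicator (fun _ => (1 : ℝ≥0∞)) t := by
    funext t
    rw [NH, ← ENNReal.tsum_set_one, tsum_subtype (wins t e H) fun _ => (1 : ℝ≥0∞)]
    exact tsum_congr fun w => rfl
  rw [this]
  exact Measurable.tsum fun w => measurable_const.indicator (measurableSet_wins e H w)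

theorem measurable_Nln (e : Sym2 V) : Measurable fun t : Conf => Nln t e :=
  Measurable.iSup fun H => measurable_NH H e

/-- Every window extends to one of the next radius. -/
lemma wins_extend {t : Conf} {e : Sym2 V} {H : ℕ} {w : Fin (2 * H + 2) → V} (hw : w ∈ wins t e H) :
    ∃ W ∈ wins t e (H + 1), ∀ i : Fin (2 * H + 2), W ⟨1 + i, by omega⟩ = w i := by
  -- pigeonhole on the extensions
  choose! v hv hvw using hw
  let E : ℕ → Fin (2 * (H + 1) + 2) → V := fun j i => v (H + 1 + j) (j + i)
  -- all extensions live in a finite set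
  obtain ⟨x, hx⟩ : ∃ x, x ∈ e := ⟨v (H + 1) (H + 1), by
    rw [← (hv (H + 1) (by omega)).mid]; exact Sym2.mem_mk_left _ _⟩
  obtain ⟨y, rfl⟩ := Sym2.mem_iff_exists.1 hx
  have hfin : (Set.range E).Finite := by
    let bd : ℤ := 2 * (H + 1) + 2
    refine (Set.Finite.pi fun _ : Fin (2 * (H + 1) + 2) =>
      ((Finset.Icc (x.1 - bd) (x.1 + bd) ×ˢ Finset.Icc (x.2 - bd) (x.2 + bd)).finite_toSet)).subset
      ?_
    rintro _ ⟨j, rfl⟩ i -
    set k := H + 1 + j with hk
    have hs := hv k (by omega)
    have hmid : |(v k k).1 - x.1| + |(v k k).2 - x.2| ≤ 1 := by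
      have hadj := hs.geo.1 k (by omega)
      rcases Sym2.eq_iff.1 hs.mid with ⟨p, q⟩ | ⟨p, q⟩
      · rw [p]; simp
      · unfold Adj at hadj
        rw [q] at hadj
        exact le_of_eq hadj
    have hd : |(v k (j + i)).1 - (v k k).1| + |(v k (j + i)).2 - (v k k).2| ≤ bd - 1 := by
      rcases le_total (j + (i : ℕ)) k with h | h
      · have := path_dist (hs.geo.1.shift (show j + (i : ℕ) ≤ k from h) (by omega))
        simp only [add_zero, show j + (i : ℕ) + (k - (j + i)) = k by omega] at this
        rw [abs_sub_comm (v k k).1, abs_sub_comm (v k k).2] at this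
        refine this.trans ?_
        omega
      · have := path_dist (hs.geo.1.shift (show k ≤ j + (i : ℕ) from h) (by omega))
        simp only [add_zero, show k + (j + i - k) = j + (i : ℕ) by omega] at this
        refine this.trans ?_
        omega
    have := abs_nonneg ((v k k).1 - x.1)
    have := abs_nonneg ((v k k).2 - x.2)
    have := abs_nonneg ((v k (j + i)).1 - (v k k).1)
    have := abs_nonneg ((v k (j + i)).2 - (v k k).2)
    have h1 := abs_sub_le (v k (j + i)).1 (v k k).1 x.1
    have h2 := abs_sub_le (v k (j + i)).2 (v k k).2 x.2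
    have g1 := abs_le.1 (show |(v k (j + i)).1 - x.1| ≤ bd by linarith)
    have g2 := abs_le.1 (show |(v k (j + i)).2 - x.2| ≤ bd by linarith)
    simp only [Finset.coe_product, Set.mem_prod, Finset.coe_Icc, Set.mem_Icc]
    exact ⟨⟨by linarith, by linarith⟩, by linarith, by linarith⟩
  have : Finite (Set.range E) := hfin.to_subtype
  obtain ⟨W, hWinf⟩ := Finite.exists_infinite_fiber (Set.rangeFactorization E)
  rw [Set.infinite_coe_iff] at hWinf
  refine ⟨W.1, fun k hk => ?_, ?_⟩
  · obtain ⟨j, hj, hjk⟩ := hWinf.exists_gt k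
    have hE : E j = W.1 := congrArg Subtype.val (Set.mem_singleton_iff.1 hj)
    have hs := hv (H + 1 + j) (by omega)
    set d := H + 1 + j - k with hd
    refine ⟨fun i => v (H + 1 + j) (d + i),
      ⟨by simpa [show d + (2 * k + 1) - d = 2 * k + 1 by omega] using
        hs.geo.sub (show d ≤ d + (2 * k + 1) by omega) (by omega), fun a ha b hb hab => ?_, ?_⟩,
      fun i => ?_⟩
    · simp only [Set.mem_Iic] at ha hb
      have := hs.inj (show d + a ∈ Set.Iic _ by simp; omega)
        (show d + b ∈ Set.Iic _ by simp; omega) hab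
      omega
    · have := hs.mid
      show s(v (H + 1 + j) (d + k), v (H + 1 + j) (d + (k + 1))) = _
      rwa [show d + (k + 1) = H + 1 + j + 1 by omega, show d + k = H + 1 + j by omega]
    · rw [← hE]
      simp only [E]
      congr 1
      omega
  · obtain ⟨j, hj⟩ := hWinf.nonempty
    have hE : E j = W.1 := congrArg Subtype.val (Set.mem_singleton_iff.1 hj)
    intro i
    rw [← hE, ← hvw (H + 1 + j) (by omega) i]
    simp only [E]
    congr 1
    omega

/-- Longer windows restrict onto shorter ones. -/
lemma NH_mono (t : Conf) (e : Sym2 V) : Monotone fun H => NH H t e := by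
  refine monotone_nat_of_le_succ fun H => ?_
  show ((wins t e H).encard : ℝ≥0∞) ≤ ((wins t e (H + 1)).encard : ℝ≥0∞)
  refine mod_cast ?_
  let r : (Fin (2 * (H + 1) + 2) → V) → (Fin (2 * H + 2) → V) := fun w i => w ⟨1 + i, by omega⟩
  refine le_trans (Set.encard_le_encard (t := r '' wins t e (H + 1)) fun w hw => ?_)
    (Set.encard_image_le _ _)
  obtain ⟨W, hW, hWw⟩ := wins_extend hw
  exact ⟨W, hW, funext hWw⟩

/-- A segment of smaller radius. -/
lemma seg_sub {t : Conf} {e : Sym2 V} {k K : ℕ} {v : ℕ → V} (h : Seg t e K v) (hk : k ≤ K) :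
    Seg t e k (fun i => v (K - k + i)) where
  geo := by
    simpa [show K - k + (2 * k + 1) - (K - k) = 2 * k + 1 by omega] using
      h.geo.sub (show K - k ≤ K - k + (2 * k + 1) by omega) (by omega)
  inj a ha b hb hab := by
    simp only [Set.mem_Iic] at ha hb
    have := h.inj (show K - k + a ∈ Set.Iic _ by simp; omega)
      (show K - k + b ∈ Set.Iic _ by simp; omega) hab
    omega
  mid := by
    show s(v (K - k + k), v (K - k + (k + 1))) = e
    rw [show K - k + k = K by omega, show K - k + (k + 1) = K + 1 by omega]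
    exact h.mid

/-- The event of having segments of every radius. -/
lemma measurableSet_forall_seg (e : Sym2 V) :
    MeasurableSet {t : Conf | ∀ k, ∃ v, Seg t e k v} := by
  have : {t : Conf | ∀ k, ∃ v, Seg t e k v} =
      {t : Conf | ∀ k, ∃ q : Fin (2 * k + 1 + 1) → V, Seg t e k (ext q)} := by
    ext t
    refine ⟨fun h k => ?_, fun h k => ?_⟩
    · obtain ⟨v, hv⟩ := h k
      exact ⟨fun j => v j, seg_congr (fun i hi => (ext_restrict v _ i hi).symm) hv⟩
    · obtain ⟨q, hq⟩ := h k
      exact ⟨ext q, hq⟩
  rw [this]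
  simp only [Set.ofPred_forall, Set.ofPred_exists]
  exact MeasurableSet.iInter fun k => MeasurableSet.iUnion fun q => measurableSet_seg _ _ _

/-- Translating a vertex. -/
def trV (z : V) (v : V) : V := v + z

lemma cost_shiftW (z : V) (t : Conf) (v : ℕ → V) (L : ℕ) :
    cost (shiftW z t) v L = cost t (fun i => v i + z) L :=
  Finset.sum_congr rfl fun k _ => by simp [shiftW, Sym2.map_mk]

lemma adj_add (z a b : V) : Adj (a + z) (b + z) ↔ Adj a b := by
  simp [Adj]

lemma isGeo_shiftW (z : V) (t : Conf) (v : ℕ → V) (L : ℕ) :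
    IsGeo (shiftW z t) v L ↔ IsGeo t (fun i => v i + z) L := by
  constructor
  · rintro ⟨hp, h⟩
    refine ⟨fun k hk => (adj_add z _ _).2 (hp k hk), fun w M hw h0 hM => ?_⟩
    have := h (fun i => w i - z) M (fun k hk => (adj_add z _ _).1 (by simpa using hw k hk))
      (by simp [h0]) (by simp [hM])
    simpa [cost_shiftW] using this
  · rintro ⟨hp, h⟩
    refine ⟨fun k hk => (adj_add z _ _).1 (hp k hk), fun w M hw h0 hM => ?_⟩
    have := h (fun i => w i + z) M (fun k hk => (adj_add z _ _).2 (hw k hk)) (by simp [h0])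
      (by simp [hM])
    simpa [cost_shiftW] using this

lemma NH_shiftW (z : V) (t : Conf) (e : Sym2 V) (H : ℕ) :
    NH H (shiftW z t) e = NH H t (Sym2.map (fun v => v + z) e) := by
  have key : wins t (Sym2.map (fun v => v + z) e) H =
      (fun w : Fin (2 * H + 2) → V => fun i => w i + z) '' wins (shiftW z t) e H := by
    ext w
    constructor
    · intro hw
      refine ⟨fun i => w i - z, fun k hk => ?_, by simp⟩
      obtain ⟨v, ⟨hg, hi, hm⟩, hwv⟩ := hw k hk
      refine ⟨fun i => v i - z, ⟨(isGeo_shiftW z t _ _).2 (by simpa using hg),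
        fun a ha b hb hab => hi ha hb (sub_left_inj.1 hab), ?_⟩, fun i => by simp [hwv]⟩
      refine Sym2.map.injective (add_left_injective z) ?_
      rw [Sym2.map_mk, ← hm]
      simp
    · rintro ⟨w, hw, rfl⟩ k hk
      obtain ⟨v, ⟨hg, hi, hm⟩, hwv⟩ := hw k hk
      refine ⟨fun i => v i + z, ⟨(isGeo_shiftW z t _ _).1 hg,
        fun a ha b hb hab => hi ha hb (add_left_injective z hab), ?_⟩, fun i => by simp [hwv]⟩
      rw [← hm, Sym2.map_mk]
  simp only [NH, key]
  rw [Function.Injective.encard_image]
  exact fun w w' h => funext fun i => add_left_injective z (congrFun h i)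

variable (G : Measure ℝ) [IsProbabilityMeasure G]

lemma measurable_shiftW (z : V) : Measurable (shiftW z) :=
  measurable_pi_lambda _ fun _ => measurable_pi_apply _

theorem env_shiftW (z : V) : (env G).map (shiftW z) = env G := by
  classical
  refine Measure.eq_infinitePi _ fun s S hS => ?_
  set σ : Sym2 V → Sym2 V := Sym2.map (fun v => v + z) with hσ
  have hinj : Function.Injective σ := Sym2.map.injective (add_left_injective z)
  rw [Measure.map_apply (measurable_shiftW z) (MeasurableSet.pi s.countable_toSet fun i _ => hS i)]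
  let S' : Sym2 V → Set ℝ := fun j => S (Function.invFun σ j)
  have hpre : shiftW z ⁻¹' Set.pi ↑s S = Set.pi ↑(s.image σ) S' := by
    ext t
    simp only [Set.mem_preimage, Set.mem_pi, Finset.coe_image, Set.forall_mem_image, S', shiftW]
    refine forall₂_congr fun i _ => ?_
    rw [Function.leftInverse_invFun hinj i]
  rw [hpre, env, Measure.infinitePi_pi _ fun j _ => hS _, Finset.prod_image hinj.injOn]
  exact Finset.prod_congr rfl fun i _ => by simp only [Function.leftInverse_invFun hinj i]

/-- Resampling one weight: the old value and the new configuration are independent. -/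
theorem map_resample (e : Sym2 V) : ((env G).prod G).map
    (fun p => (p.1 e, Function.update p.1 e p.2)) = G.prod (env G) := by
  classical
  have hm : Measurable fun p : Conf × ℝ => (p.1 e, Function.update p.1 e p.2) :=
    ((measurable_pi_apply e).comp measurable_fst).prodMk measurable_update'
  symm
  refine Measure.prod_eq fun A B hA hB => ?_
  -- for fixed `A`, both sides are finite measures in `B` agreeing on cylinders
  set μ : Measure Conf := ((((env G).prod G).restrict ((fun p => p.1 e) ⁻¹' A)).map
    (fun p => Function.update p.1 e p.2)) with hμ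
  have hmu : Measurable fun p : Conf × ℝ => Function.update p.1 e p.2 := measurable_update'
  have hAe : MeasurableSet ((fun p : Conf × ℝ => p.1 e) ⁻¹' A) :=
    ((measurable_pi_apply e).comp measurable_fst) hA
  have hμB : ∀ B, MeasurableSet B → ((env G).prod G).map
      (fun p => (p.1 e, Function.update p.1 e p.2)) (A ×ˢ B) = μ B := fun B hB => by
    rw [Measure.map_apply hm (hA.prod hB), hμ, Measure.map_apply hmu hB,
      Measure.restrict_apply (hmu hB), Set.inter_comm]
    rfl
  rw [hμB B hB]
  have hbox : ∀ (s : Finset (Sym2 V)) (S : Sym2 V → Set ℝ), (∀ i, MeasurableSet (S i)) →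
      μ (Set.pi ↑s S) = G A * ∏ i ∈ s, G (S i) := by
    intro s S hS
    have hSm : MeasurableSet (Set.pi (↑s : Set (Sym2 V)) S) :=
      MeasurableSet.pi s.countable_toSet fun i _ => hS i
    rw [hμ, Measure.map_apply hmu hSm, Measure.restrict_apply (hmu hSm)]
    let T : Sym2 V → Set ℝ := fun i => if i = e then A else S i
    let U : Set ℝ := if e ∈ s then S e else Set.univ
    have hset : (fun p : Conf × ℝ => Function.update p.1 e p.2) ⁻¹' Set.pi ↑s S ∩
        (fun p => p.1 e) ⁻¹' A = (Set.pi ↑(insert e s) T) ×ˢ U := by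
      ext ⟨t, u⟩
      simp only [Set.mem_inter_iff, Set.mem_preimage, Set.mem_pi, Finset.mem_coe, Set.mem_prod, T, U]
      constructor
      · rintro ⟨h1, h2⟩
        refine ⟨fun i hi => ?_, ?_⟩
        · by_cases hie : i = e
          · subst hie; simpa using h2
          · have := h1 i ((Finset.mem_insert.1 hi).resolve_left hie)
            rwa [Function.update_of_ne hie, ← if_neg hie (t := A) (e := S i)] at this
        · by_cases he : e ∈ s
          · simpa [he] using h1 e he
          · simp [he]
      · rintro ⟨h1, h2⟩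
        refine ⟨fun i hi => ?_, by simpa using h1 e (Finset.mem_insert_self _ _)⟩
        by_cases hie : i = e
        · subst hie; simpa [hi] using h2
        · simpa [Function.update_of_ne hie, hie] using h1 i (Finset.mem_insert_of_mem hi)
    have hT : ∀ i, MeasurableSet (T i) := fun i => by
      simp only [T]; split_ifs <;> first | exact hA | exact hS i
    rw [hset, Measure.prod_prod, env, Measure.infinitePi_pi _ fun i _ => hT i]
    by_cases he : e ∈ s
    · rw [Finset.insert_eq_of_mem he, ← Finset.mul_prod_erase _ _ he,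
        ← Finset.mul_prod_erase s (fun i => G (S i)) he]
      simp only [T, U, he, if_true]
      rw [Finset.prod_congr rfl fun i hi => by rw [if_neg (Finset.ne_of_mem_erase hi)]]
      ring
    · rw [Finset.prod_insert he]
      simp only [T, U, he, if_true, if_false, measure_univ, mul_one]
      rw [Finset.prod_congr rfl fun i hi => by
        rw [if_neg fun h : i = e => he (h ▸ hi)]]
  rcases eq_or_ne (G A) 0 with h0 | h0
  · rw [h0, zero_mul]
    have := hbox ∅ (fun _ => Set.univ) fun _ => MeasurableSet.univ
    simp only [Finset.coe_empty, Set.empty_pi, h0, zero_mul] at this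
    exact measure_mono_null (Set.subset_univ _) this
  · have hA' : G A ≠ ⊤ := measure_ne_top G A
    have : (G A)⁻¹ • μ = env G := Measure.eq_infinitePi _ fun s S hS => by
      rw [Measure.smul_apply, hbox s S hS, smul_eq_mul, ← mul_assoc,
        ENNReal.inv_mul_cancel h0 hA', one_mul]
    rw [← this, Measure.smul_apply, smul_eq_mul, ← mul_assoc, ENNReal.mul_inv_cancel h0 hA',
      one_mul]

end Vale.Agent.P158.NB.Lines
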