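import Vale.Agent.P158.NB.Lines

/-!
# P158 (iv): lines and windows, and the expected number of lines meeting a box

A line through `e` shows a window of every radius; distinct lines show distinct windows of a large
radius. A line meeting a box of radius `4 * n` has many strong edges in the box of radius `5 * n`,
so the expected number of lines meeting it is linear in `n`.
-/

namespace Vale.Agent.P158.NB

open Vale.Agent.P158 MeasureTheory Filter Topology
open scoped ENNReal

namespace Lines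

/-- The window of a line at the step `i`. -/
def lineWin (H : ℕ) (γ : ℤ → V) (i : ℤ) : Fin (2 * H + 2) → V := fun j => γ (i - H + (j : ℕ))

lemma lineWin_mem {t : Conf} {γ : ℤ → V} (h : IsLine t γ) (H : ℕ) {i : ℤ} {e : Sym2 V}
    (he : s(γ i, γ (i + 1)) = e) : lineWin H γ i ∈ wins t e H := by
  intro k hk
  refine ⟨fun j => γ (i - k + (j : ℕ)), ⟨h.geo _ _, fun a _ b _ hab => ?_, ?_⟩, fun j => ?_⟩
  · have := h.inj hab
    omega
  · show s(γ (i - k + ((k : ℕ) : ℤ)), γ (i - k + ((k + 1 : ℕ) : ℤ))) = e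
    rw [← he, show i - (k : ℤ) + ((k : ℕ) : ℤ) = i by ring,
      show i - (k : ℤ) + ((k + 1 : ℕ) : ℤ) = i + 1 by push_cast; ring]
  · simp only [lineWin]
    congr 1
    omega

lemma lineUses_of_win_eq {H : ℕ} {γ δ : ℤ → V} {i j l : ℤ} (hw : lineWin H γ i = lineWin H δ j)
    (h1 : i - H ≤ l) (h2 : l ≤ i + H) : LineUses δ s(γ l, γ (l + 1)) := by
  have ha := congrFun hw ⟨(l - (i - H)).toNat, by omega⟩
  have hb := congrFun hw ⟨(l - (i - H)).toNat + 1, by omega⟩
  simp only [lineWin] at ha hb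
  refine ⟨j - H + ((l - (i - H)).toNat : ℤ), ?_⟩
  rw [show i - (H : ℤ) + (((l - (i - H)).toNat : ℕ) : ℤ) = l by omega] at ha
  rw [show i - (H : ℤ) + ((((l - (i - H)).toNat + 1 : ℕ) : ℕ) : ℤ) = l + 1 by omega] at hb
  rw [ha, hb]
  push_cast
  ring_nf

/-- Distinct lines through an edge are counted by `Nln`. -/
theorem card_lines_le_Nln {t : Conf} {e : Sym2 V} {ι : Type*} (S : Finset ι) (γ : ι → ℤ → V)
    (hline : ∀ a ∈ S, IsLine t (γ a) ∧ LineUses (γ a) e)
    (hne : ∀ a ∈ S, ∀ b ∈ S, a ≠ b → ¬ SameLine (γ a) (γ b)) :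
    (S.card : ℝ≥0∞) ≤ Nln t e := by
  classical
  choose! i hi using fun a ha => (hline a ha).2
  -- a radius separating the lines
  have hsep : ∀ p : ι × ι, ∃ M : ℕ, p.1 ∈ S → p.2 ∈ S → p.1 ≠ p.2 → ∀ H, M ≤ H →
      lineWin H (γ p.1) (i p.1) ≠ lineWin H (γ p.2) (i p.2) := by
    intro p
    by_cases hp : p.1 ∈ S ∧ p.2 ∈ S ∧ p.1 ≠ p.2
    · have hns := hne p.1 hp.1 p.2 hp.2.1 hp.2.2
      simp only [SameLine, not_forall] at hns
      obtain ⟨f, hf⟩ := hns
      by_cases hf1 : LineUses (γ p.1) f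
      · obtain ⟨l, rfl⟩ := hf1
        refine ⟨(l - i p.1).natAbs, fun _ _ _ H hH hw => ?_⟩
        have := lineUses_of_win_eq (l := l) hw (by omega) (by omega)
        have h1 : LineUses (γ p.1) s(γ p.1 l, γ p.1 (l + 1)) := ⟨l, rfl⟩
        tauto
      · obtain ⟨l, rfl⟩ : LineUses (γ p.2) f := by tauto
        refine ⟨(l - i p.2).natAbs, fun _ _ _ H hH hw => ?_⟩
        exact hf1 (lineUses_of_win_eq (l := l) hw.symm (by omega) (by omega))
    · exact ⟨0, fun h1 h2 h3 => absurd ⟨h1, h2, h3⟩ hp⟩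
  choose M hM using hsep
  set H := (S ×ˢ S).sup M with hH
  refine le_trans ?_ (le_iSup (fun H => ((wins t e H).encard : ℝ≥0∞)) H)
  refine ENat.toENNReal_le.2 ?_ |>.trans' (le_of_eq (ENat.toENNReal_coe S.card).symm)
  rw [← Set.encard_coe_eq_coe_finsetCard]
  refine le_trans (le_of_eq ?_) (Set.encard_le_encard
    (show (fun a => lineWin H (γ a) (i a)) '' (S : Set ι) ⊆ wins t e H from ?_))
  · refine (Set.InjOn.encard_image ?_).symm
    intro a ha b hb hab
    by_contra h
    exact hM (a, b) ha hb h H (Finset.le_sup (Finset.mk_mem_product ha hb)) hab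
  · rintro _ ⟨a, ha, rfl⟩
    exact lineWin_mem (hline a ha).1 H (hi a ha)

/-- The nearest-neighbour edges with first end in the box of radius `r` around `0`. -/
noncomputable def stepsFin (r : ℕ) : Finset (Sym2 V) :=
  ((Finset.Icc (-(r : ℤ)) r ×ˢ Finset.Icc (-(r : ℤ)) r) ×ˢ (Finset.univ : Finset (Fin 4))).image
    fun p => s(p.1, p.1 + dir p.2)

lemma stepsFin_isEdge {r : ℕ} {e : Sym2 V} (h : e ∈ stepsFin r) : IsEdge e := by
  simp only [stepsFin, Finset.mem_image] at h
  obtain ⟨⟨z, d⟩, -, rfl⟩ := h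
  refine ⟨z, z + dir d, ?_, rfl⟩
  fin_cases d <;> simp [Adj, dir]

lemma stepsFin_card (r : ℕ) : (stepsFin r).card ≤ 4 * (2 * r + 1) ^ 2 := by
  refine Finset.card_image_le.trans (le_of_eq ?_)
  simp only [Finset.card_product, Int.card_Icc, Finset.card_univ, Fintype.card_fin]
  rw [show ((r : ℤ) + 1 - -(r : ℤ)).toNat = 2 * r + 1 by omega]
  ring

/-- `n` times the number of lines meeting the box of radius `4 * n` is at most twice the lines
through strong edges of the box of radius `5 * n`. -/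
theorem card_lines_box_le {t : Conf} {θ : ℝ} {n : ℕ} (hlong : t ∈ LongGood θ n) {ι : Type*}
    (S : Finset ι) (γ : ι → ℤ → V)
    (hline : ∀ a ∈ S, IsLine t (γ a) ∧ ∃ i, γ a i ∈ box 0 (4 * n))
    (hne : ∀ a ∈ S, ∀ b ∈ S, a ≠ b → ¬ SameLine (γ a) (γ b)) :
    (n : ℝ≥0∞) * S.card ≤
      2 * ∑ e ∈ stepsFin (5 * n), {t : Conf | θ ≤ t e}.indicator (fun t => Nln t e) t := by
  classical
  choose! i hi using fun a ha => (hline a ha).2
  set E : ι → Finset (Sym2 V) := fun a =>
    (stepsFin (5 * n)).filter fun e => θ ≤ t e ∧ LineUses (γ a) e with hE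
  have hcard : ∀ a ∈ S, n ≤ 2 * (E a).card := by
    intro a ha
    obtain ⟨hl, -⟩ := hline a ha
    set v : ℕ → V := fun k => γ a (i a + k) with hv
    have hp : IsPath v n := fun k _ => by
      simpa [hv, add_assoc] using hl.adj (i a + k)
    have hinj : Function.Injective v := fun k l hkl => by
      have := hl.inj hkl
      omega
    refine (hlong v n hp hinj.injOn (by simpa [hv] using hi a ha) le_rfl).trans
      (Nat.mul_le_mul_left 2 ?_)
    refine Finset.card_le_card_of_injOn (fun k => s(v k, v (k + 1))) (fun k hk => ?_) ?_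
    · obtain ⟨hk1, hk2⟩ := Finset.mem_filter.1 (Finset.mem_coe.1 hk)
      rw [Finset.mem_range] at hk1
      refine Finset.mem_filter.2 ⟨?_, hk2, i a + k, ?_⟩
      · obtain ⟨d, hd⟩ := exists_dir (hp k hk1)
        simp only [stepsFin, Finset.mem_image, Finset.mem_product, Finset.mem_Icc,
          Finset.mem_univ, and_true, Prod.exists]
        refine ⟨(v k).1, (v k).2, d, ?_, by rw [hd]⟩
        have hdist := path_dist (fun j hj => hp j (by omega) : IsPath v k)
        have h0 : v 0 ∈ box 0 (4 * n) := by simpa [hv] using hi a ha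
        simp only [box, Prod.fst_zero, Prod.snd_zero, sub_zero, Set.mem_ofPred_eq] at h0
        push_cast at h0 ⊢
        have := abs_sub_abs_le_abs_sub (v k).1 (v 0).1
        have := abs_sub_abs_le_abs_sub (v k).2 (v 0).2
        have := abs_nonneg ((v k).1 - (v 0).1)
        have := abs_nonneg ((v k).2 - (v 0).2)
        have hkn : (k : ℤ) ≤ n := by omega
        exact ⟨abs_le.1 (by linarith), abs_le.1 (by linarith)⟩
      · simp [hv, add_assoc]
    · intro k _ l _ hkl
      simp only at hkl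
      rcases Sym2.eq_iff.1 hkl with ⟨h, -⟩ | ⟨h, h'⟩
      · exact hinj h
      · have := hinj h
        have := hinj h'
        omega
  have hsum : (n * S.card : ℕ) ≤ 2 * ∑ e ∈ stepsFin (5 * n),
      if θ ≤ t e then (S.filter fun a => LineUses (γ a) e).card else 0 := by
    rw [mul_comm, ← smul_eq_mul, ← Finset.sum_const]
    refine (Finset.sum_le_sum hcard).trans (le_of_eq ?_)
    rw [← Finset.mul_sum]
    congr 1
    simp only [hE, Finset.card_filter]
    rw [Finset.sum_comm]
    refine Finset.sum_congr rfl fun e _ => ?_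
    split_ifs with h <;> simp [h]
  have hcast : ((n * S.card : ℕ) : ℝ≥0∞) ≤ 2 * ∑ e ∈ stepsFin (5 * n),
      ((if θ ≤ t e then (S.filter fun a => LineUses (γ a) e).card else 0 : ℕ) : ℝ≥0∞) := by
    exact_mod_cast hsum
  rw [Nat.cast_mul] at hcast
  refine hcast.trans (mul_le_mul' le_rfl (Finset.sum_le_sum fun e _ => ?_))
  simp only [Set.indicator_apply, Set.mem_ofPred_eq]
  split_ifs with h
  · exact card_lines_le_Nln _ γ
      (fun a ha => ⟨(hline a (Finset.mem_filter.1 ha).1).1, (Finset.mem_filter.1 ha).2⟩)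
      fun a ha b hb => hne a (Finset.mem_filter.1 ha).1 b (Finset.mem_filter.1 hb).1
  · simp

variable (G : Measure ℝ) [IsProbabilityMeasure G]

/-- The expected bound of `card_lines_box_le` is `O(n ^ 2)`. -/
theorem lintegral_lines_box_le (θ : ℝ) {B : ℝ≥0∞}
    (hB : ∀ e, IsEdge e → ∫⁻ t in {t | θ ≤ t e}, Nln t e ∂env G ≤ B) (n : ℕ) :
    ∫⁻ t, 2 * ∑ e ∈ stepsFin (5 * n), {t : Conf | θ ≤ t e}.indicator (fun t => Nln t e) t ∂env G ≤
      8 * ((10 * n + 1) ^ 2 : ℕ) * B := by
  have hs : ∀ e : Sym2 V, MeasurableSet {t : Conf | θ ≤ t e} := fun e =>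
    measurableSet_le measurable_const (measurable_pi_apply e)
  have hm : ∀ e ∈ stepsFin (5 * n),
      Measurable ({t : Conf | θ ≤ t e}.indicator fun t => Nln t e) := fun e _ =>
    (measurable_Nln e).indicator (hs e)
  rw [lintegral_const_mul' _ _ (by simp), lintegral_finsetSum _ hm]
  refine (mul_le_mul' le_rfl (Finset.sum_le_card_nsmul _ _ B fun e he => ?_)).trans ?_
  · rw [lintegral_indicator (hs e)]
    exact hB e (stepsFin_isEdge he)
  · rw [nsmul_eq_mul, ← mul_assoc]
    refine mul_le_mul' ?_ le_rfl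
    have := stepsFin_card (5 * n)
    calc (2 : ℝ≥0∞) * (stepsFin (5 * n)).card = ((2 * (stepsFin (5 * n)).card : ℕ) : ℝ≥0∞) := by
          push_cast; rfl
      _ ≤ ((8 * (10 * n + 1) ^ 2 : ℕ) : ℝ≥0∞) := by
          refine Nat.cast_le.2 ?_
          rw [show 2 * (5 * n) = 10 * n by ring] at this
          omega
      _ = _ := by push_cast; rfl

end Lines

end Vale.Agent.P158.NB
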