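import Vale.Agent.P158.NB.Lines.Geo

/-!
# P158 (iv): paths from deep inside a cycle stay in the domain until they hit the cycle
-/

namespace Vale.Agent.P158.NB.Lines

open Vale.Agent.P158

variable (C : Cyc)

/-- The cycle as a vertex set. -/
def onC (x : V) : Prop := ∃ k < C.m, C.c k = x

lemma onC_of_le {k : ℕ} (hk : k ≤ C.m) : onC C (C.c k) := by
  rcases hk.lt_or_eq with h | h
  · exact ⟨k, h, rfl⟩
  · exact ⟨0, by have := C.three; omega, by rw [h, C.closed]⟩

/-- The four faces at a vertex. -/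
def fAt (x f : V) : Prop :=
  (f.1 = x.1 ∨ f.1 = x.1 - 1) ∧ (f.2 = x.2 ∨ f.2 = x.2 - 1)

lemma par_zero {e : Sym2 V} (h : ∀ k < C.m, s(C.c k, C.c (k + 1)) ≠ e) :
    par C.c C.m e = 0 :=
  Finset.sum_eq_zero fun k hk => if_neg (h k (Finset.mem_range.1 hk))

lemma eq_of_add_zero {a b : ZMod 2} (h : a + b = 0) : a = b := by
  revert h
  revert a b
  decide

lemma zmod_two_cases (a : ZMod 2) : a = 0 ∨ a = 1 := by
  revert a
  decide

lemma col_eq_off {x f g : V} (hx : ¬ onC C x) (hf : fAt x f) (hg : fAt x g) :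
    col C.c C.m f = col C.c C.m g := by
  have hz : ∀ y, par C.c C.m s(x, y) = 0 ∧ par C.c C.m s(y, x) = 0 := by
    intro y
    constructor <;> refine par_zero C fun k hk h => hx ?_ <;>
      rcases Sym2.eq_iff.1 h with ⟨a, b⟩ | ⟨a, b⟩ <;>
      first
        | exact a ▸ onC_of_le C hk.le
        | exact b ▸ onC_of_le C hk
  obtain ⟨x1, x2⟩ := x
  have h1 := col_cross_v (v := C.c) (L := C.m) C.path x1 x2
  have h2 := col_cross_v (v := C.c) (L := C.m) C.path x1 (x2 - 1)
  have h3 := col_cross_h (v := C.c) (L := C.m) C.path C.closed x1 x2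
  have h4 := col_cross_h (v := C.c) (L := C.m) C.path C.closed (x1 - 1) x2
  have e2 : vE ((x1, x2 - 1) : V) = s((x1, x2 - 1), (x1, x2)) := by simp [vE]
  have e4 : hE ((x1 - 1, x2) : V) = s((x1 - 1, x2), (x1, x2)) := by simp [hE]
  rw [show par C.c C.m (vE ((x1, x2) : V)) = 0 from (hz (x1, x2 + 1)).1] at h1
  rw [e2, (hz (x1, x2 - 1)).2] at h2
  rw [show par C.c C.m (hE ((x1, x2) : V)) = 0 from (hz (x1 + 1, x2)).1] at h3
  rw [e4, (hz (x1 - 1, x2)).2] at h4
  have key : ∀ f : V, fAt (x1, x2) f → col C.c C.m f = col C.c C.m (x1, x2) := by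
    rintro ⟨f1, f2⟩ ⟨a | a, b | b⟩ <;> simp only at a b <;> subst a b
    · rfl
    · exact eq_of_add_zero h3
    · exact eq_of_add_zero h1
    · rw [eq_of_add_zero h2, eq_of_add_zero h3]
  rw [key f hf, key g hg]

lemma touch_at {a b : V} (h : Adj a b) : ∃ f, touch s(a, b) f ∧ fAt a f ∧ fAt b f := by
  obtain ⟨a1, a2⟩ := a
  obtain ⟨b1, b2⟩ := b
  rcases adj_cases h with ⟨p, q⟩ | ⟨p, q⟩ | ⟨p, q⟩ | ⟨p, q⟩ <;> simp only at p q <;> rw [p, q]
  · exact ⟨(a1, a2), Or.inr (Or.inr (Or.inl rfl)), by simp [fAt], by simp [fAt]⟩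
  · refine ⟨(a1 - 1, a2), Or.inr (Or.inr (Or.inl ?_)), by simp [fAt], by simp [fAt]⟩
    simp [hE, Sym2.eq_swap]
  · exact ⟨(a1, a2), Or.inl rfl, by simp [fAt], by simp [fAt]⟩
  · refine ⟨(a1, a2 - 1), Or.inl ?_, by simp [fAt], by simp [fAt]⟩
    simp [vE, Sym2.eq_swap]

/-- Off the cycle and surrounded by it. -/
def Inside (x : V) : Prop := ¬ onC C x ∧ ∀ f, fAt x f → C.inner f

lemma inside_step {a b : V} (ha : Inside C a) (h : Adj a b) :
    s(a, b) ∈ C.edges ∧ (¬ onC C b → Inside C b) := by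
  obtain ⟨f, hf, hfa, hfb⟩ := touch_at h
  refine ⟨⟨f, hf, ha.2 f hfa⟩, fun hb => ⟨hb, fun g hg => ?_⟩⟩
  show col C.c C.m g = 1
  rw [col_eq_off C hb hg hfb]
  exact ha.2 f hfa

lemma inside_of_encloses {z x : V} {n : ℕ} (h : C.Encloses z n)
    (hx : |x.1 - z.1| + 2 ≤ n ∧ |x.2 - z.2| + 2 ≤ n) : Inside C x := by
  obtain ⟨hk, hi⟩ := h
  have hxbox : x ∈ box z n := ⟨by linarith [hx.1], by linarith [hx.2]⟩
  refine ⟨fun ⟨k, hkm, he⟩ => hk k hkm (he ▸ hxbox), fun f hf => ?_⟩
  obtain ⟨⟨a, a'⟩, b, b'⟩ : (x.1 - 1 ≤ f.1 ∧ f.1 ≤ x.1) ∧ (x.2 - 1 ≤ f.2 ∧ f.2 ≤ x.2) := by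
    obtain ⟨a | a, b | b⟩ := hf <;> refine ⟨⟨?_, ?_⟩, ?_, ?_⟩ <;> omega
  have h1 := abs_le.1 (show |x.1 - z.1| ≤ (n : ℤ) - 2 by linarith [hx.1])
  have h2 := abs_le.1 (show |x.2 - z.2| ≤ (n : ℤ) - 2 by linarith [hx.2])
  exact hi f ⟨abs_le.2 ⟨by linarith, by linarith⟩, abs_le.2 ⟨by linarith, by linarith⟩⟩
    ⟨abs_le.2 ⟨by linarith, by linarith⟩, abs_le.2 ⟨by linarith, by linarith⟩⟩

lemma col_outside {B : ℤ} (hC : ∀ k ≤ C.m, |(C.c k).1| ≤ B ∧ |(C.c k).2| ≤ B) {f : V}
    (hf : B ≤ f.1 ∨ f.1 < -B ∨ B ≤ f.2 ∨ f.2 < -B) : col C.c C.m f = 0 := by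
  have hrow : ∀ g : V, B ≤ g.1 ∨ B ≤ g.2 ∨ g.2 < -B → col C.c C.m g = 0 := by
    intro g hg
    refine Finset.sum_eq_zero fun k hk => if_neg ?_
    rw [Finset.mem_range] at hk
    rintro ⟨-, h2, h3, hne⟩
    have := abs_le.1 (hC k hk.le).1
    have := abs_le.1 (hC k hk.le).2
    have := abs_le.1 (hC (k + 1) hk).2
    omega
  by_cases hl : f.1 < -B
  · have hup : ∀ j : ℕ, col C.c C.m (f.1, f.2 + j) = col C.c C.m f := by
      intro j
      induction j with
      | zero => simp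
      | succ j ih =>
        have h := col_cross_h (v := C.c) (L := C.m) C.path C.closed f.1 (f.2 + (j + 1 : ℕ))
        rw [par_zero C, show f.2 + ((j + 1 : ℕ) : ℤ) - 1 = f.2 + j by push_cast; ring] at h
        · rw [← eq_of_add_zero h, ih]
        intro k hk he
        simp only [hE, Sym2.eq_iff] at he
        have := abs_le.1 (hC k hk.le).1
        have := abs_le.1 (hC (k + 1) hk).1
        rcases he with ⟨a, -⟩ | ⟨-, b⟩
        · have := congrArg Prod.fst a
          simp only at this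
          omega
        · have := congrArg Prod.fst b
          simp only at this
          omega
    rw [← hup (B - f.2).toNat]
    refine hrow _ ?_
    simp only
    omega
  · rcases hf with h | h | h | h
    · exact hrow f (Or.inl h)
    · exact absurd h hl
    · exact hrow f (Or.inr (Or.inl h))
    · exact hrow f (Or.inr (Or.inr h))

/-- A path from inside reaching the outside of the big box first hits the cycle, and stays in
the domain until then. -/
lemma exists_first_hit {n : ℕ} (hsub : ∀ k, k < C.m → C.c k ∈ box 0 (2 * n)) {v : ℕ → V} {L : ℕ}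
    (hv : IsPath v L) (h0 : Inside C (v 0)) (hexit : ∃ k ≤ L, v k ∉ box 0 (2 * n)) :
    ∃ j, 0 < j ∧ j ≤ L ∧ onC C (v j) ∧ ∀ i < j, s(v i, v (i + 1)) ∈ C.edges := by
  classical
  have hhit : ∃ k, k ≤ L ∧ onC C (v k) := by
    by_contra hcon
    push Not at hcon
    have hin : ∀ k ≤ L, Inside C (v k) := by
      intro k hk
      induction k with
      | zero => exact h0
      | succ k ih => exact (inside_step C (ih (by omega)) (hv k hk)).2 (hcon _ hk)
    obtain ⟨k, hk, hkout⟩ := hexit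
    have hcb : ∀ j ≤ C.m, |(C.c j).1| ≤ (2 * n : ℤ) ∧ |(C.c j).2| ≤ (2 * n : ℤ) := by
      intro j hj
      obtain ⟨i, hi, he⟩ := onC_of_le C hj
      have := hsub i hi
      simpa [box, he] using this
    have hout : (2 * n : ℤ) < |(v k).1| ∨ (2 * n : ℤ) < |(v k).2| := by
      by_contra hc
      push Not at hc
      exact hkout (by simpa [box] using hc)
    have h1 : col C.c C.m ((v k).1, (v k).2) = 1 := (hin k hk).2 _ (by simp [fAt])
    have h1' : col C.c C.m ((v k).1 - 1, (v k).2 - 1) = 1 := (hin k hk).2 _ (by simp [fAt])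
    rcases hout with h | h <;> rcases lt_abs.1 h with h | h
    · rw [col_outside C hcb (Or.inl h.le)] at h1; exact zero_ne_one h1
    · rw [col_outside C hcb (Or.inr (Or.inl (by simp only; linarith)))] at h1'
      exact zero_ne_one h1'
    · rw [col_outside C hcb (Or.inr (Or.inr (Or.inl h.le)))] at h1; exact zero_ne_one h1
    · rw [col_outside C hcb (Or.inr (Or.inr (Or.inr (by simp only; linarith))))] at h1'
      exact zero_ne_one h1'
  obtain ⟨hjL, hjC⟩ := Nat.find_spec hhit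
  have hin : ∀ i < Nat.find hhit, Inside C (v i) := by
    intro i hi
    induction i with
    | zero => exact h0
    | succ i ih =>
      exact (inside_step C (ih (by omega)) (hv i (by omega))).2 fun hc =>
        Nat.find_min hhit hi ⟨by omega, hc⟩
  exact ⟨Nat.find hhit, Nat.pos_of_ne_zero fun h => h0.1 (h ▸ hjC), hjL, hjC,
    fun i hi => (inside_step C (hin i hi) (hv i (by omega))).1⟩

/-- A long simple path leaves the big box. -/
lemma exists_exit (n : ℕ) {v : ℕ → V} {L : ℕ} (hinj : Set.InjOn v (Set.Iic L))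
    (hL : (4 * n + 1) * (4 * n + 1) ≤ L) : ∃ k ≤ L, v k ∉ box 0 (2 * n) := by
  by_contra hcon
  push Not at hcon
  have h : (Finset.Iic L).card ≤
      (Finset.Icc (-(2 * n : ℤ)) (2 * n) ×ˢ Finset.Icc (-(2 * n : ℤ)) (2 * n)).card := by
    refine Finset.card_le_card_of_injOn v (fun k hk => ?_) (fun a ha b hb => hinj ?_ ?_)
    · have := hcon k (Finset.mem_Iic.1 hk)
      simp only [box, Prod.fst_zero, Prod.snd_zero, sub_zero, Set.mem_ofPred_eq, abs_le] at this
      simp only [Finset.coe_product, Set.mem_prod, Finset.coe_Icc, Set.mem_Icc]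
      push_cast at this ⊢
      exact ⟨this.1, this.2⟩
    · simpa using ha
    · simpa using hb
  rw [Nat.card_Iic, Finset.card_product, Int.card_Icc,
    show ((2 * n : ℤ) + 1 - -(2 * n : ℤ)).toNat = 4 * n + 1 by omega] at h
  omega

/-- Every edge of the cycle lies in the domain. -/
lemma cycle_edge_mem {k : ℕ} (hk : k < C.m) : s(C.c k, C.c (k + 1)) ∈ C.edges := by
  classical
  have h3 := C.three
  have hpar : par C.c C.m s(C.c k, C.c (k + 1)) = 1 := by
    rw [par, Finset.sum_eq_single k]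
    · exact if_pos rfl
    · intro j hj hjk
      rw [Finset.mem_range] at hj
      refine if_neg fun he => ?_
      rcases Sym2.eq_iff.1 he with ⟨a, -⟩ | ⟨a, b⟩
      · exact hjk (C.inj hj hk a)
      · rcases Nat.lt_or_ge (k + 1) C.m with h | h
        · obtain rfl := C.inj hj h a
          rcases Nat.lt_or_ge (k + 1 + 1) C.m with h' | h'
          · have := C.inj h' hk b
            omega
          · rw [show k + 1 + 1 = C.m by omega, C.closed] at b
            have := C.inj (show 0 < C.m by omega) hk b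
            omega
        · rw [show k + 1 = C.m by omega, C.closed] at a
          obtain rfl := C.inj hj (show 0 < C.m by omega) a
          have := C.inj (show 0 + 1 < C.m by omega) hk b
          omega
    · exact fun h => absurd (Finset.mem_range.2 hk) h
  obtain ⟨f, g, hf, hg, hne⟩ : ∃ f g, touch s(C.c k, C.c (k + 1)) f ∧
      touch s(C.c k, C.c (k + 1)) g ∧ f ≠ g := by
    have h := C.path k hk
    generalize C.c k = a, C.c (k + 1) = b at h
    obtain ⟨a1, a2⟩ := a
    obtain ⟨b1, b2⟩ := b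
    rcases adj_cases h with ⟨p, q⟩ | ⟨p, q⟩ | ⟨p, q⟩ | ⟨p, q⟩ <;> simp only at p q <;> rw [p, q]
    · exact ⟨(a1, a2), (a1, a2 - 1), Or.inr (Or.inr (Or.inl rfl)),
        Or.inr (Or.inr (Or.inr (by simp [hE]))), by simp; try omega⟩
    · exact ⟨(a1 - 1, a2), (a1 - 1, a2 - 1), Or.inr (Or.inr (Or.inl (by simp [hE, Sym2.eq_swap]))),
        Or.inr (Or.inr (Or.inr (by simp [hE, Sym2.eq_swap]))), by simp; try omega⟩
    · exact ⟨(a1, a2), (a1 - 1, a2), Or.inl rfl, Or.inr (Or.inl (by simp [vE])), by simp; try omega⟩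
    · exact ⟨(a1, a2 - 1), (a1 - 1, a2 - 1), Or.inl (by simp [vE, Sym2.eq_swap]),
        Or.inr (Or.inl (by simp [vE, Sym2.eq_swap])), by simp; try omega⟩
  have hs := col_cross C.path C.closed hf hg hne
  rw [hpar] at hs
  rcases zmod_two_cases (col C.c C.m f) with h | h
  · rw [h, zero_add] at hs
    exact ⟨g, hg, hs⟩
  · exact ⟨f, hf, h⟩

lemma arc_path (t : Conf) (hpos : ∀ e, 0 < t e) {i j : ℕ} (hij : i ≤ j) (hj : j ≤ C.m)
    {F : Set (Sym2 V)} (hF : ∀ k < C.m, s(C.c k, C.c (k + 1)) ∉ F) :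
    PathIn (C.edges \ F) (C.c i) (C.c j) (fun k => C.c (i + k)) (j - i) ∧
      cost t (fun k => C.c (i + k)) (j - i) ≤ cost t C.c C.m := by
  refine ⟨⟨C.path.shift hij hj, fun k hk => ?_, by simp, by simp [Nat.add_sub_cancel' hij]⟩, ?_⟩
  · have h : i + k < C.m := by omega
    exact ⟨by simpa [add_assoc] using cycle_edge_mem C h, by simpa [add_assoc] using hF _ h⟩
  · rw [cost_split t C.c (show i ≤ C.m by omega),
      cost_split t (fun k => C.c (i + k)) (show j - i ≤ C.m - i by omega)]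
    have := cost_nonneg hpos C.c i
    have := cost_nonneg hpos (fun k => C.c (i + (j - i + k))) (C.m - i - (j - i))
    simp only [← add_assoc] at *
    linarith

/-- Marks are joined cheaply along the cycle. -/
lemma exists_mark_path (t : Conf) (hpos : ∀ e, 0 < t e) {i j : ℕ} (hi : i ≤ C.m) (hj : j ≤ C.m)
    {F : Set (Sym2 V)} (hF : ∀ k < C.m, s(C.c k, C.c (k + 1)) ∉ F) :
    ∃ v L, PathIn (C.edges \ F) (C.c i) (C.c j) v L ∧ cost t v L ≤ cost t C.c C.m := by
  rcases le_total i j with h | h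
  · obtain ⟨hp, hc⟩ := arc_path C t hpos h hj hF
    exact ⟨_, _, hp, hc⟩
  · obtain ⟨hp, hc⟩ := arc_path C t hpos h hi hF
    refine ⟨P158.rev (fun k => C.c (j + k)) (i - j), i - j, ⟨rev_path hp.path, fun k hk => ?_, ?_,
      ?_⟩, by rwa [rev_cost]⟩
    · have := hp.mem (i - j - (k + 1)) (by omega)
      rw [show i - j - (k + 1) + 1 = i - j - k by omega, Sym2.eq_swap] at this
      exact this
    · simp [P158.rev, Nat.add_sub_cancel' h]
    · simp [P158.rev]

end Vale.Agent.P158.NB.Lines
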