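import Vale.Agent.P158.NB.Defs

/-!
# P158 (iv): geodesics inside a domain — the facts used for lines through an edge
-/

namespace Vale.Agent.P158.NB.Lines

open Vale.Agent.P158

variable {t : Conf} {K : Set (Sym2 V)} {x y : V} {v : ℕ → V} {L : ℕ}

lemma cost_nonneg (hpos : ∀ e, 0 < t e) (v : ℕ → V) (L : ℕ) : 0 ≤ cost t v L :=
  Finset.sum_nonneg fun k _ => (hpos _).le

lemma cost_split (t : Conf) (v : ℕ → V) {i L : ℕ} (h : i ≤ L) :
    cost t v L = cost t v i + cost t (fun k => v (i + k)) (L - i) := by
  unfold cost
  conv_lhs => rw [← Nat.add_sub_cancel' h, Finset.sum_range_add]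
  exact congrArg₂ (· + ·) rfl (Finset.sum_congr rfl fun k _ => by rw [add_assoc])

/-- Removing loops. -/
lemma exists_simple (hpos : ∀ e, 0 < t e) (h : PathIn K x y v L) :
    ∃ w M, PathIn K x y w M ∧ Set.InjOn w (Set.Iic M) ∧ cost t w M ≤ cost t v L := by
  induction L using Nat.strong_induction_on generalizing v with
  | _ L ih =>
    by_cases hinj : Set.InjOn v (Set.Iic L)
    · exact ⟨v, L, h, hinj, le_rfl⟩
    obtain ⟨i, j, hij, hjL, heq⟩ : ∃ i j, i < j ∧ j ≤ L ∧ v i = v j := by
      simp only [Set.InjOn, Set.mem_Iic, not_forall] at hinj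
      obtain ⟨a, ha, b, hb, hab, hne⟩ := hinj
      rcases lt_or_gt_of_ne hne with h | h
      · exact ⟨a, b, h, hb, hab⟩
      · exact ⟨b, a, h, ha, hab.symm⟩
    have hc : (fun k => v (j + k)) 0 = v i := by simpa using heq.symm
    have hp : PathIn K x y (cat v i fun k => v (j + k)) (i + (L - j)) := by
      refine ⟨cat_path (fun k hk => h.path k (by omega)) (h.path.shift hjL le_rfl) hc,
        fun k hk => ?_, ?_, ?_⟩
      · rcases lt_or_ge k i with hk' | hk'
        · rw [cat_left _ _ _ _ hk'.le, cat_left _ _ _ _ hk']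
          exact h.mem k (by omega)
        · obtain ⟨l, rfl⟩ : ∃ l, k = i + l := ⟨k - i, by omega⟩
          rw [cat_right _ _ _ _ hc, show i + l + 1 = i + (l + 1) by omega, cat_right _ _ _ _ hc]
          simpa [add_assoc] using h.mem (j + l) (by omega)
      · rw [cat_left _ _ _ _ (Nat.zero_le _), h.first]
      · rw [cat_right _ _ _ _ hc, show j + (L - j) = L by omega, h.last]
    have hle : cost t (cat v i fun k => v (j + k)) (i + (L - j)) ≤ cost t v L := by
      rw [cat_cost t hc, cost_split t v hjL, cost_split t v hij.le]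
      have := cost_nonneg hpos (fun k => v (i + k)) (j - i)
      linarith
    obtain ⟨w, M, hw, hwi, hwc⟩ := ih (i + (L - j)) (by omega) hp
    exact ⟨w, M, hw, hwi, hwc.trans hle⟩

lemma T_le (hpos : ∀ e, 0 < t e) (h : PathIn K x y v L) : T t K x y ≤ cost t v L := by
  refine csInf_le ⟨0, ?_⟩ ⟨v, L, h, rfl⟩
  rintro r ⟨w, M, -, rfl⟩
  exact cost_nonneg hpos w M

lemma T_eq (hpos : ∀ e, 0 < t e) (h : GeoIn t K x y v L) : T t K x y = cost t v L := by
  refine le_antisymm (T_le hpos h.toPathIn) (le_csInf ⟨_, v, L, h.toPathIn, rfl⟩ ?_)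
  rintro r ⟨w, M, hw, rfl⟩
  exact h.least w M hw

lemma geoIn_reverse (h : GeoIn t K x y v L) : GeoIn t K y x (P158.rev v L) L where
  path := rev_path h.path
  mem k hk := by
    have := h.mem (L - (k + 1)) (by omega)
    rw [show L - (k + 1) + 1 = L - k by omega, Sym2.eq_swap] at this
    exact this
  first := by simp [P158.rev, h.last]
  last := by simp [P158.rev, h.first]
  inj a ha b hb hab := by
    have := h.inj (show L - a ∈ Set.Iic L by simp) (show L - b ∈ Set.Iic L by simp) hab
    simp only [Set.mem_Iic] at ha hb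
    omega
  least w M hw := by
    have := h.least (P158.rev w M) M
      { path := rev_path hw.path
        mem := fun k hk => by
          have := hw.mem (M - (k + 1)) (by omega)
          rw [show M - (k + 1) + 1 = M - k by omega, Sym2.eq_swap] at this
          exact this
        first := by simp [P158.rev, hw.last]
        last := by simp [P158.rev, hw.first] }
    rw [rev_cost] at this ⊢
    exact this

lemma geoIn_suffix (h : GeoIn t K x y v L) {i : ℕ} (hi : i ≤ L) :
    GeoIn t K (v i) y (fun k => v (i + k)) (L - i) where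
  path := h.path.shift hi le_rfl
  mem k hk := by simpa [add_assoc] using h.mem (i + k) (by omega)
  first := by simp
  last := by simp [Nat.add_sub_cancel' hi, h.last]
  inj a ha b hb hab := by
    simp only [Set.mem_Iic] at ha hb
    have := h.inj (show i + a ∈ Set.Iic L by simp; omega) (show i + b ∈ Set.Iic L by simp; omega) hab
    omega
  least w M hw := by
    have hc : w 0 = v i := hw.first
    have key := h.least (cat v i w) (i + M)
      { path := cat_path (fun k hk => h.path k (by omega)) hw.path hc
        mem := fun k hk => by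
          rcases lt_or_ge k i with hk' | hk'
          · rw [cat_left _ _ _ _ hk'.le, cat_left _ _ _ _ hk']
            exact h.mem k (by omega)
          · obtain ⟨l, rfl⟩ : ∃ l, k = i + l := ⟨k - i, by omega⟩
            rw [cat_right _ _ _ _ hc, show i + l + 1 = i + (l + 1) by omega, cat_right _ _ _ _ hc]
            exact hw.mem l (by omega)
        first := by rw [cat_left _ _ _ _ (Nat.zero_le _), h.first]
        last := by rw [cat_right _ _ _ _ hc, hw.last] }
    rw [cat_cost t hc, cost_split t v hi] at key
    linarith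

lemma geoIn_unique (hok : OK t) {w : ℕ → V} {M : ℕ} (hv : GeoIn t K x y v L)
    (hw : GeoIn t K x y w M) : L = M ∧ ∀ k ≤ L, v k = w k :=
  hok.uniq v w L M hv.path hw.path hv.inj hw.inj (hv.first.trans hw.first.symm)
    (hv.last.trans hw.last.symm)
    (le_antisymm (hv.least w M hw.toPathIn) (hw.least v L hv.toPathIn))

/-- Two geodesics to the same target traverse a common edge in the same direction and agree
after it. -/
lemma same_after (hok : OK t) {x' : V} {w : ℕ → V} {M k k' : ℕ} (hv : GeoIn t K x y v L)
    (hw : GeoIn t K x' y w M) (hk : k < L) (hk' : k' < M)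
    (he : s(v k, v (k + 1)) = s(w k', w (k' + 1))) :
    v k = w k' ∧ L - k = M - k' ∧ ∀ j, k + j ≤ L → v (k + j) = w (k' + j) := by
  have hdir : v k = w k' := by
    rcases Sym2.eq_iff.1 he with ⟨a, -⟩ | ⟨a, b⟩
    · exact a
    exfalso
    have h1 := geoIn_suffix hv (show k + 1 ≤ L by omega)
    have h2 := geoIn_suffix hw (show k' ≤ M by omega)
    have h3 := geoIn_suffix hv hk.le
    have h4 := geoIn_suffix hw (show k' + 1 ≤ M by omega)
    rw [b] at h1
    rw [a] at h3
    have e12 := T_eq hok.pos h1
    rw [T_eq hok.pos h2] at e12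
    have e34 := T_eq hok.pos h3
    rw [T_eq hok.pos h4] at e34
    have s1 := cost_split t (fun j => v (k + j)) (show 1 ≤ L - k by omega)
    have s2 := cost_split t (fun j => w (k' + j)) (show 1 ≤ M - k' by omega)
    simp only [← add_assoc, show L - k - 1 = L - (k + 1) by omega,
      show M - k' - 1 = M - (k' + 1) by omega] at s1 s2
    have p1 : 0 < cost t (fun j => v (k + j)) 1 :=
      Finset.sum_pos (fun j _ => hok.pos _) (by simp)
    have p2 : 0 < cost t (fun j => w (k' + j)) 1 :=
      Finset.sum_pos (fun j _ => hok.pos _) (by simp)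
    linarith
  have h3 := geoIn_suffix hv hk.le
  have h4 := geoIn_suffix hw hk'.le
  rw [hdir] at h3
  obtain ⟨e, h⟩ := geoIn_unique hok h3 h4
  exact ⟨hdir, e, fun j hj => h j (by omega)⟩

/-- Cost after changing one weight, for a simple path. -/
lemma cost_update (t : Conf) {v : ℕ → V} {L : ℕ} (hinj : Set.InjOn v (Set.Iic L)) (e : Sym2 V)
    (u : ℝ) : (Uses v L e → cost (Function.update t e u) v L = cost t v L - t e + u) ∧
      (¬ Uses v L e → cost (Function.update t e u) v L = cost t v L) := by
  constructor
  · rintro ⟨k, hk, hke⟩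
    unfold cost
    rw [← Finset.add_sum_erase _ _ (Finset.mem_range.2 hk),
      ← Finset.add_sum_erase _ _ (Finset.mem_range.2 hk)]
    have hrest : ∀ l ∈ (Finset.range L).erase k,
        Function.update t e u s(v l, v (l + 1)) = t s(v l, v (l + 1)) := by
      intro l hl
      simp only [Finset.mem_erase, Finset.mem_range] at hl
      rw [Function.update_of_ne]
      rw [← hke]
      intro h
      rcases Sym2.eq_iff.1 h with ⟨a, -⟩ | ⟨a, b⟩
      · exact hl.1 (hinj (by simp; omega) (by simp; omega) a)
      · have := hinj (show l ∈ Set.Iic L by simp; omega) (by simp; omega) a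
        have := hinj (show l + 1 ∈ Set.Iic L by simp; omega) (by simp; omega) b
        omega
    rw [Finset.sum_congr rfl hrest, hke, Function.update_self]
    ring
  · intro hu
    refine Finset.sum_congr rfl fun l hl => Function.update_of_ne (fun h => hu ⟨l, ?_, h⟩) u t
    exact Finset.mem_range.1 hl

/-- Lowering the weight of an edge of a geodesic keeps it a geodesic. -/
lemma isGeo_lower (hpos : ∀ e, 0 < t e) {e : Sym2 V} {u : ℝ} (hu : t e ≤ u)
    (h : IsGeo (Function.update t e u) v L) (hinj : Set.InjOn v (Set.Iic L))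
    (huse : Uses v L e) : IsGeo t v L := by
  refine ⟨h.1, fun w M hw h0 hM => ?_⟩
  obtain ⟨w', M', hw', hi', hc'⟩ := exists_simple (K := Set.univ) hpos
    ⟨hw, fun _ _ => Set.mem_univ _, h0, hM⟩
  have key := h.2 w' M' hw'.path hw'.first hw'.last
  rw [(cost_update t hinj e u).1 huse] at key
  by_cases hw'e : Uses w' M' e
  · rw [(cost_update t hi' e u).1 hw'e] at key
    linarith
  · rw [(cost_update t hi' e u).2 hw'e] at key
    linarith

lemma geoIn_of_isGeo (h : IsGeo t v L) (hinj : Set.InjOn v (Set.Iic L))
    (hmem : ∀ k < L, s(v k, v (k + 1)) ∈ K) : GeoIn t K (v 0) (v L) v L where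
  path := h.1
  mem := hmem
  first := rfl
  last := rfl
  inj := hinj
  least w M hw := h.2 w M hw.path hw.first hw.last

end Vale.Agent.P158.NB.Lines
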