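import Vale.Agent.P158.NB.Lines.Dom

/-!
# P158 (iv): windows of lines through an edge give boundary pairs with a gain

Without a merge near the edge, two such pairs with a common mark have the same window, so the
rectangle inequality bounds the number of windows by the mass of the edge.
-/

namespace Vale.Agent.P158.NB.Lines

open Vale.Agent.P158
open scoped ENNReal

variable {C : Cyc} {t : Conf} {n H : ℕ} {x y : V}

/-- The window of radius `H` around the step `k`. -/
def win (H : ℕ) (v : ℕ → V) (k : ℕ) : Fin (2 * H + 2) → V := fun i => v (k - H + i)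

/-- The reversed window. -/
def revWin (H : ℕ) (w : Fin (2 * H + 2) → V) : Fin (2 * H + 2) → V := fun i => w i.rev

lemma revWin_inv (H : ℕ) : Function.Involutive (revWin H) := fun w => by
  funext i; simp [revWin]

/-- The middle start index. -/
def midI (H : ℕ) : Fin (2 * H + 2) := ⟨H, by omega⟩

lemma revWin_win {v : ℕ → V} {L k : ℕ} (hk : H ≤ k) (hL : k + H + 1 ≤ L) :
    win H (P158.rev v L) (L - (k + 1)) = revWin H (win H v k) := by
  funext i
  simp only [win, revWin, P158.rev, Fin.val_rev]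
  congr 1
  omega

lemma rev_uses {v : ℕ → V} {L k : ℕ} {e : Sym2 V} (hk : k < L) (he : s(v k, v (k + 1)) = e) :
    L - (k + 1) < L ∧ s(P158.rev v L (L - (k + 1)), P158.rev v L (L - (k + 1) + 1)) = e := by
  refine ⟨by omega, ?_⟩
  simp only [P158.rev]
  rw [show L - (L - (k + 1)) = k + 1 by omega, show L - (L - (k + 1) + 1) = k by omega,
    Sym2.eq_swap, he]

lemma seg_rev {e : Sym2 V} {k : ℕ} {v : ℕ → V} (h : Seg t e k v) :
    Seg t e k (P158.rev v (2 * k + 1)) where
  geo := h.geo.reverse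
  inj a ha b hb hab := by
    have := h.inj (show 2 * k + 1 - a ∈ Set.Iic _ by simp)
      (show 2 * k + 1 - b ∈ Set.Iic _ by simp) hab
    simp only [Set.mem_Iic] at ha hb
    omega
  mid := by
    have := (rev_uses (L := 2 * k + 1) (by omega) h.mid).2
    rwa [show 2 * k + 1 - (k + 1) = k by omega] at this

lemma revWin_mem_wins {e : Sym2 V} {w : Fin (2 * H + 2) → V} (hw : w ∈ wins t e H) :
    revWin H w ∈ wins t e H := by
  intro k hk
  obtain ⟨v, hv, hwv⟩ := hw k hk
  refine ⟨_, seg_rev hv, fun i => ?_⟩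
  have := congrFun (revWin_win (v := v) (L := 2 * k + 1) hk (by omega)) i
  simp only [win, revWin, show 2 * k + 1 - (k + 1) = k by omega] at this
  rw [this, revWin, hwv]

/-- No merge in any target tree within `H + 1` of `x`. -/
def NoMerge (C : Cyc) (t : Conf) (H : ℕ) (x : V) : Prop :=
  ∀ a w, a < C.m → |w.1 - x.1| ≤ H + 1 → |w.2 - x.2| ≤ H + 1 → ¬ C.Merge t a w

/-- The edge lies deep inside. -/
def Deep (C : Cyc) (n H : ℕ) (x : V) : Prop :=
  C.Encloses 0 n ∧ |x.1| + H + 4 ≤ n ∧ |x.2| + H + 4 ≤ n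

lemma deep_inside (hD : Deep C n H x) (hxy : Adj x y) : Inside C x ∧ Inside C y := by
  obtain ⟨he, h1, h2⟩ := hD
  have hH : (0 : ℤ) ≤ H := Int.natCast_nonneg H
  refine ⟨inside_of_encloses C he ⟨by simp; linarith, by simp; linarith⟩,
    inside_of_encloses C he ?_⟩
  have := abs_nonneg (x.1 - y.1)
  have := abs_nonneg (x.2 - y.2)
  unfold Adj at hxy
  have := abs_sub_abs_le_abs_sub y.1 x.1
  have := abs_sub_abs_le_abs_sub y.2 x.2
  rw [abs_sub_comm y.1, abs_sub_comm] at *
  constructor <;> simp <;> linarith [abs_sub_comm x.2 y.2, abs_sub_comm x.1 y.1]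

lemma mark_far (hD : Deep C n H x) {a : ℕ} (ha : a ≤ C.m) {v : ℕ → V} {L : ℕ} (hv : IsPath v L)
    (h0 : v 0 = C.c a) (hL : v L = x) : H + 2 ≤ L := by
  obtain ⟨⟨hk, -⟩, h1, h2⟩ := hD
  obtain ⟨i, hi, he⟩ := onC_of_le C ha
  have hd := path_dist hv
  rw [h0, hL, ← he] at hd
  by_contra hlt
  have hlt' : (L : ℤ) ≤ H + 1 := by omega
  have := abs_nonneg (x.1 - (C.c i).1)
  have := abs_nonneg (x.2 - (C.c i).2)
  refine hk i hi ⟨?_, ?_⟩ <;> simp only [Prod.fst_zero, Prod.snd_zero, sub_zero]
  · have := abs_sub_abs_le_abs_sub (C.c i).1 x.1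
    rw [abs_sub_comm] at this
    linarith
  · have := abs_sub_abs_le_abs_sub (C.c i).2 x.2
    rw [abs_sub_comm] at this
    linarith

lemma margins (hD : Deep C n H x) (hxy : Adj x y) {a b : ℕ} (ha : a ≤ C.m) (hb : b ≤ C.m)
    {v : ℕ → V} {L k : ℕ} (hv : GeoIn t C.edges (C.c a) (C.c b) v L) (hk : k < L)
    (he : s(v k, v (k + 1)) = s(x, y)) : H ≤ k ∧ k + H + 1 ≤ L := by
  have hpre : ∀ j ≤ L, IsPath v j := fun j hj i hi => hv.path i (by omega)
  have hsuf : ∀ j ≤ L, IsPath (P158.rev (fun i => v (j + i)) (L - j)) (L - j) :=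
    fun j hj => rev_path (hv.path.shift hj le_rfl)
  have r0 : ∀ j ≤ L, P158.rev (fun i => v (j + i)) (L - j) 0 = C.c b ∧
      P158.rev (fun i => v (j + i)) (L - j) (L - j) = v j := fun j hj => by
    simp [P158.rev, Nat.add_sub_cancel' hj, hv.last]
  rcases Sym2.eq_iff.1 he with ⟨e1, e2⟩ | ⟨e1, e2⟩
  · have p := mark_far hD ha (hpre k hk.le) hv.first e1
    have q := mark_far hD hb (hsuf k hk.le) (r0 k hk.le).1 ((r0 k hk.le).2.trans e1)
    omega
  · have p := mark_far hD ha (hpre (k + 1) hk) hv.first e2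
    have q := mark_far hD hb (hsuf (k + 1) hk) (r0 (k + 1) hk).1 ((r0 (k + 1) hk).2.trans e2)
    omega

/-- Two geodesics to one mark through the edge have one window. -/
lemma win_eq_same_target (hok : OK t) (hD : Deep C n H x) (hxy : Adj x y)
    (hNM : NoMerge C t H x) {a a' b : ℕ} (ha : a < C.m) (ha' : a' < C.m) (hb : b < C.m)
    {v w : ℕ → V} {L M k k' : ℕ} (hv : GeoIn t C.edges (C.c a) (C.c b) v L)
    (hw : GeoIn t C.edges (C.c a') (C.c b) w M) (hk : k < L) (hk' : k' < M)
    (he : s(v k, v (k + 1)) = s(x, y)) (he' : s(w k', w (k' + 1)) = s(x, y)) :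
    win H v k = win H w k' := by
  obtain ⟨hdir, hlen, hafter⟩ := same_after hok hv hw hk hk' (he.trans he'.symm)
  obtain ⟨m1, m2⟩ := margins hD hxy ha.le hb.le hv hk he
  obtain ⟨m3, m4⟩ := margins hD hxy ha'.le hb.le hw hk' he'
  have hvk : v k = x ∨ v k = y := by
    rcases Sym2.eq_iff.1 he with h | h
    · exact Or.inl h.1
    · exact Or.inr h.1
  have hbefore : ∀ j ≤ H, v (k - j) = w (k' - j) := by
    intro j hj
    induction j with
    | zero => simpa using hdir
    | succ j ih =>
      by_contra hne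
      have hbm : b % C.m = b := Nat.mod_eq_of_lt hb
      refine hNM b (v (k - j)) hb ?_ ?_ ⟨a, a', ha, ha', v, L, w, M, by rwa [hbm], by rwa [hbm],
        k - (j + 1), k' - (j + 1), by omega, by omega, by congr 1; omega, ?_, hne⟩
      rotate_left 2
      · rw [ih (by omega)]; congr 1; omega
      all_goals
        have hd := path_dist (hv.path.shift (show k - j ≤ k by omega) hk.le)
        simp only [add_zero, show k - j + (k - (k - j)) = k by omega] at hd
        have hj' : ((k - (k - j) : ℕ) : ℤ) ≤ H := by omega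
        have := abs_nonneg ((v k).1 - (v (k - j)).1)
        have := abs_nonneg ((v k).2 - (v (k - j)).2)
        have hxk : |(v k).1 - x.1| + |(v k).2 - x.2| ≤ 1 := by
          rcases hvk with h | h <;> rw [h]
          · simp
          · rw [abs_sub_comm y.1, abs_sub_comm y.2]
            exact le_of_eq hxy
        have := abs_nonneg ((v k).1 - x.1)
        have := abs_nonneg ((v k).2 - x.2)
      · have := abs_sub_le (v (k - j)).1 (v k).1 x.1
        rw [abs_sub_comm (v (k - j)).1 (v k).1] at this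
        linarith
      · have := abs_sub_le (v (k - j)).2 (v k).2 x.2
        rw [abs_sub_comm (v (k - j)).2 (v k).2] at this
        linarith
  funext i
  simp only [win]
  rcases le_total (i : ℕ) H with h | h
  · have := hbefore (H - i) (by omega)
    rwa [show k - (H - i) = k - H + i by omega, show k' - (H - i) = k' - H + i by omega] at this
  · have := hafter (i - H) (by omega)
    rwa [show k + (i - H) = k - H + i by omega, show k' + (i - H) = k' - H + i by omega] at this

/-- A marked geodesic through the edge carrying the window. -/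
def Carries (C : Cyc) (t : Conf) (H : ℕ) (e : Sym2 V) (a b : ℕ)
    (w : Fin (2 * H + 2) → V) : Prop :=
  a < C.m ∧ b < C.m ∧ ∃ v L k, GeoIn t C.edges (C.c a) (C.c b) v L ∧ k < L ∧
    s(v k, v (k + 1)) = e ∧ win H v k = w

lemma carries_rev (hD : Deep C n H x) (hxy : Adj x y) {a b : ℕ} {w : Fin (2 * H + 2) → V}
    (h : Carries C t H s(x, y) a b w) : Carries C t H s(x, y) b a (revWin H w) := by
  obtain ⟨ha, hb, v, L, k, hv, hk, he, rfl⟩ := h
  obtain ⟨m1, m2⟩ := margins hD hxy ha.le hb.le hv hk he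
  obtain ⟨h1, h2⟩ := rev_uses hk he
  exact ⟨hb, ha, _, L, _, geoIn_reverse hv, h1, h2, revWin_win m1 m2⟩

lemma carries_same (hok : OK t) (hD : Deep C n H x) (hxy : Adj x y) (hNM : NoMerge C t H x)
    {a b a' b' : ℕ} {w w' : Fin (2 * H + 2) → V} (h : Carries C t H s(x, y) a b w)
    (h' : Carries C t H s(x, y) a' b' w')
    (hsh : a = a' ∨ a = b' ∨ b = a' ∨ b = b') : w = w' ∨ w = revWin H w' := by
  have tgt : ∀ {p q p' : ℕ} {u u' : Fin (2 * H + 2) → V}, Carries C t H s(x, y) p q u →
      Carries C t H s(x, y) p' q u' → u = u' := by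
    rintro p q p' u u' ⟨hp, hq, v, L, k, hv, hk, he, rfl⟩ ⟨hp', -, v', L', k', hv', hk', he', rfl⟩
    exact win_eq_same_target hok hD hxy hNM hp hp' hq hv hv' hk hk' he he'
  rcases hsh with rfl | rfl | rfl | rfl
  · exact Or.inl ((revWin_inv H).injective (tgt (carries_rev hD hxy h) (carries_rev hD hxy h')))
  · refine Or.inr ?_
    have := tgt (carries_rev hD hxy h) h'
    exact (revWin_inv H).eq_iff.mp this
  · exact Or.inr (tgt h (carries_rev hD hxy h'))
  · exact Or.inl (tgt h h')

/-- A window of a line at `e` gives a pair of marks with a gain. -/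
lemma exists_carries (hok : OK t) (hD : Deep C n H x) (hxy : Adj x y)
    (hsub : ∀ k, k < C.m → C.c k ∈ box 0 (2 * n)) {u : ℝ} (hu : t s(x, y) ≤ u)
    {w : Fin (2 * H + 2) → V} (hw : w ∈ wins (Function.update t s(x, y) u) s(x, y) H) :
    ∃ a b, Carries C t H s(x, y) a b w ∧ u - t s(x, y) ≤ C.gainU t {s(x, y)} a b := by
  obtain ⟨hxi, hyi⟩ := deep_inside hD hxy
  set e := s(x, y) with he
  set k := max H ((4 * n + 1) * (4 * n + 1)) with hkdef
  have hkH : H ≤ k := le_max_left _ _
  have hkn : (4 * n + 1) * (4 * n + 1) ≤ k := le_max_right _ _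
  obtain ⟨v, ⟨hgeo, hinj, hmid⟩, hwin⟩ := hw k hkH
  have hin : Inside C (v k) ∧ Inside C (v (k + 1)) := by
    rcases Sym2.eq_iff.1 hmid with ⟨p, q⟩ | ⟨p, q⟩ <;> rw [p, q]
    · exact ⟨hxi, hyi⟩
    · exact ⟨hyi, hxi⟩
  -- forward
  have hpf : IsPath (fun i => v (k + 1 + i)) k := fun i hi => by
    simpa [add_assoc] using hgeo.1 (k + 1 + i) (by omega)
  have hif : Set.InjOn (fun i => v (k + 1 + i)) (Set.Iic k) := fun a ha b hb hab => by
    simp only [Set.mem_Iic] at ha hb
    have := hinj (show k + 1 + a ∈ Set.Iic _ by simp; omega)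
      (show k + 1 + b ∈ Set.Iic _ by simp; omega) hab
    omega
  obtain ⟨jf, -, hjf, hcf, hef⟩ := exists_first_hit C hsub hpf (by simpa using hin.2)
    (exists_exit n hif hkn)
  -- backward
  have hpb : IsPath (fun i => v (k - i)) k := rev_path (fun i hi => hgeo.1 i (by omega))
  have hib : Set.InjOn (fun i => v (k - i)) (Set.Iic k) := fun a ha b hb hab => by
    simp only [Set.mem_Iic] at ha hb
    have := hinj (show k - a ∈ Set.Iic _ by simp; omega)
      (show k - b ∈ Set.Iic _ by simp; omega) hab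
    omega
  obtain ⟨jb, -, hjb, hcb, heb⟩ := exists_first_hit C hsub hpb (by simpa using hin.1)
    (exists_exit n hib hkn)
  obtain ⟨a, ha, hac⟩ := hcb
  obtain ⟨b, hb, hbc⟩ := hcf
  set p : ℕ → V := fun i => v (k - jb + i) with hp
  have hp0 : p 0 = C.c a := by simpa [hp] using hac.symm
  have hpL : p (jb + 1 + jf) = C.c b := by
    rw [hbc]; simp only [hp]; congr 1; omega
  have hsubgeo : IsGeo (Function.update t e u) p (jb + 1 + jf) := by
    have := hgeo.sub (show k - jb ≤ k + 1 + jf by omega) (by omega)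
    rwa [show k + 1 + jf - (k - jb) = jb + 1 + jf by omega] at this
  have hpinj : Set.InjOn p (Set.Iic (jb + 1 + jf)) := fun c hc d hd hcd => by
    simp only [Set.mem_Iic] at hc hd
    have := hinj (show k - jb + c ∈ Set.Iic _ by simp; omega)
      (show k - jb + d ∈ Set.Iic _ by simp; omega) hcd
    omega
  have hpmid : s(p jb, p (jb + 1)) = e := by
    simp only [hp, show k - jb + jb = k by omega, show k - jb + (jb + 1) = k + 1 by omega, hmid]
  have huse : Uses p (jb + 1 + jf) e := ⟨jb, by omega, hpmid⟩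
  have hmem : ∀ i < jb + 1 + jf, s(p i, p (i + 1)) ∈ C.edges := by
    intro i hi
    simp only [hp]
    rcases lt_trichotomy i jb with h | h | h
    · have := heb (jb - (i + 1)) (by omega)
      simp only [show k - (jb - (i + 1)) = k - jb + (i + 1) by omega,
        show k - (jb - (i + 1) + 1) = k - jb + i by omega] at this
      rwa [Sym2.eq_swap]
    · rw [show k - jb + i = k by omega, show k - jb + (i + 1) = k + 1 by omega]
      exact (inside_step C hin.1 (hgeo.1 k (by omega))).1
    · have := hef (i - (jb + 1)) (by omega)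
      simp only [show k + 1 + (i - (jb + 1)) = k - jb + i by omega,
        show k + 1 + (i - (jb + 1) + 1) = k - jb + (i + 1) by omega] at this
      exact this
  have hgeoT := isGeo_lower hok.pos hu hsubgeo hpinj huse
  have hG : GeoIn t C.edges (C.c a) (C.c b) p (jb + 1 + jf) := by
    have := geoIn_of_isGeo hgeoT hpinj hmem
    rwa [hp0, hpL] at this
  obtain ⟨m1, m2⟩ := margins hD hxy ha.le hb.le hG (show jb < jb + 1 + jf by omega) hpmid
  refine ⟨a, b, ⟨ha, hb, p, _, jb, hG, by omega, hpmid, ?_⟩, ?_⟩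
  · funext i
    rw [← hwin i]
    simp only [win, hp]
    congr 1
    omega
  have hF : ∀ i < C.m, s(C.c i, C.c (i + 1)) ∉ ({e} : Set (Sym2 V)) := by
    intro i hi hie
    rcases Sym2.eq_iff.1 (Set.mem_singleton_iff.1 hie) with ⟨h, -⟩ | ⟨-, h⟩
    · exact hxi.1 (h ▸ onC_of_le C hi.le)
    · exact hxi.1 (h ▸ onC_of_le C hi)
  have hd0 : C.d t ∅ a b = cost t p (jb + 1 + jf) := by
    rw [Cyc.d, Set.sdiff_empty, Nat.mod_eq_of_lt ha, Nat.mod_eq_of_lt hb, T_eq hok.pos hG]
  have hdF : cost t p (jb + 1 + jf) + (u - t e) ≤ C.d t {e} a b := by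
    rw [Cyc.d, Nat.mod_eq_of_lt ha, Nat.mod_eq_of_lt hb]
    obtain ⟨q, M, hq, -⟩ := exists_mark_path C t hok.pos ha.le hb.le hF
    refine le_csInf ⟨_, q, M, hq, rfl⟩ ?_
    rintro r ⟨q, M, hq, rfl⟩
    have key := hsubgeo.2 q M hq.path (hq.first.trans hp0.symm) (hq.last.trans hpL.symm)
    rw [(cost_update t hpinj e u).1 huse] at key
    have hqe : cost (Function.update t e u) q M = cost t q M :=
      Finset.sum_congr rfl fun l hl =>
        Function.update_of_ne (fun h => (hq.mem l (Finset.mem_range.1 hl)).2 h) u t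
    linarith
  show u - t e ≤ C.d t {e} a b - C.d t ∅ a b
  linarith

/-- The windows at an edge are bounded by its mass. -/
theorem wins_le_mass (hM : MongeStmt) (hok : OK t) (hD : Deep C n H x) (hxy : Adj x y)
    (hsub : ∀ k, k < C.m → C.c k ∈ box 0 (2 * n)) (hNM : NoMerge C t H x) {u : ℝ}
    (hu : t s(x, y) ≤ u) :
    ((wins (Function.update t s(x, y) u) s(x, y) H).encard : ℝ≥0∞) *
        ENNReal.ofReal (u - t s(x, y)) ≤
      2 * (ENNReal.ofReal (u - t s(x, y)) + ENNReal.ofReal (C.mass t {s(x, y)})) := by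
  classical
  set e := s(x, y) with he
  set W := wins (Function.update t e u) e H with hW
  set W' := {w | w ∈ W ∧ w (midI H) = x} with hW'
  have hxne : x ≠ y := fun h => by simp [Adj, h] at hxy
  have hor : ∀ w ∈ W, (w (midI H) = x ∧ revWin H w (midI H) = y) ∨
      (w (midI H) = y ∧ revWin H w (midI H) = x) := by
    intro w hw
    obtain ⟨v, hv, hwv⟩ := hw H le_rfl
    have h1 := hwv (midI H)
    have h2 := hwv (midI H).rev
    simp only [Nat.sub_self, zero_add, midI, Fin.val_rev,
      show 2 * H + 2 - (H + 1) = H + 1 by omega] at h1 h2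
    rcases Sym2.eq_iff.1 hv.mid with ⟨p, q⟩ | ⟨p, q⟩
    · exact Or.inl ⟨by rw [← p, h1]; rfl, by simp only [revWin, midI]; rw [← q, h2]⟩
    · exact Or.inr ⟨by rw [← p, h1]; rfl, by simp only [revWin, midI]; rw [← q, h2]⟩
  choose! A B hAB hgain using fun w (hw : w ∈ W') => exists_carries hok hD hxy hsub hu hw.1
  have hkey : ∀ w ∈ W', ∀ w' ∈ W', (w = w' ∨ w = revWin H w') → w = w' := by
    intro w hw w' hw' h
    rcases h with h | h
    · exact h
    · exfalso
      rcases hor w' hw'.1 with ⟨-, q⟩ | ⟨q, -⟩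
      · exact hxne (hw.2.symm.trans (h ▸ q))
      · exact hxne (hw'.2.symm.trans q)
  have hP_inj : Set.InjOn (fun w => (A w, B w)) W' := fun w hw w' hw' h =>
    hkey w hw w' hw' (carries_same hok hD hxy hNM (hAB w hw) (hAB w' hw')
      (Or.inl (congrArg Prod.fst h)))
  have hfin : W'.Finite := Set.Finite.of_finite_image
    ((Finset.range C.m ×ˢ Finset.range C.m).finite_toSet.subset (by
      rintro p ⟨w, hw, rfl⟩
      simp [(hAB w hw).1, (hAB w hw).2.1])) hP_inj
  set S := hfin.toFinset with hS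
  have hWle : W.encard ≤ 2 * (S.card : ℕ∞) := by
    have h1 : W ⊆ W' ∪ revWin H '' W' := by
      intro w hw
      rcases hor w hw with ⟨p, -⟩ | ⟨-, p⟩
      · exact Or.inl ⟨hw, p⟩
      · exact Or.inr ⟨revWin H w, ⟨revWin_mem_wins hw, p⟩, revWin_inv H w⟩
    refine (Set.encard_le_encard h1).trans ((Set.encard_union_le _ _).trans ?_)
    rw [(revWin_inv H).injective.encard_image, hfin.encard_eq_coe_toFinset_card]
    exact le_of_eq (two_mul _).symm
  have hbound : (S.card : ℝ≥0∞) * ENNReal.ofReal (u - t e) ≤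
      ENNReal.ofReal (u - t e) + ENNReal.ofReal (C.mass t {e}) := by
    rcases Nat.lt_or_ge S.card 2 with h | h
    · refine le_trans ?_ le_self_add
      refine mul_le_of_le_one_left' ?_
      exact_mod_cast Nat.lt_succ_iff.1 h
    refine le_trans ?_ le_add_self
    have hxin := (deep_inside hD hxy).1
    have hF : ∀ i < C.m, s(C.c i, C.c (i + 1)) ∉ ({e} : Set (Sym2 V)) := by
      intro i hi hie
      rcases Sym2.eq_iff.1 (Set.mem_singleton_iff.1 hie) with ⟨h, -⟩ | ⟨-, h⟩
      · exact hxin.1 (h ▸ onC_of_le C hi.le)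
      · exact hxin.1 (h ▸ onC_of_le C hi)
    set P := S.image fun w => (A w, B w) with hP
    have hmemS : ∀ w, w ∈ S ↔ w ∈ W' := fun w => hfin.mem_toFinset
    have hcard : P.card = S.card :=
      Finset.card_image_of_injOn fun w hw w' hw' => hP_inj ((hmemS w).1 hw) ((hmemS w').1 hw')
    have hne : ∀ w ∈ W', A w ≠ B w := by
      intro w hw hc
      obtain ⟨-, -, v, L, k, hv, hk, -, -⟩ := hAB w hw
      have := hv.inj (show 0 ∈ Set.Iic L by simp) (show L ∈ Set.Iic L by simp)
        (by rw [hv.first, hv.last, hc])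
      omega
    have hrect := (hM C t hok).2.2.1 {e} P hF (hcard ▸ h) (by
      intro p hp
      obtain ⟨w, hw, rfl⟩ := Finset.mem_image.1 hp
      exact ⟨(hAB w ((hmemS w).1 hw)).1, (hAB w ((hmemS w).1 hw)).2.1, hne w ((hmemS w).1 hw)⟩) (by
      intro p hp q hq hpq a ha b hb
      obtain ⟨w, hw, rfl⟩ := Finset.mem_image.1 hp
      obtain ⟨w', hw', rfl⟩ := Finset.mem_image.1 hq
      rw [hmemS] at hw hw'
      simp only [Finset.mem_insert, Finset.mem_singleton] at ha hb
      have hww : w ≠ w' := fun hc => hpq (by rw [hc])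
      have hsh : ∀ {c : ℕ}, (c = A w ∨ c = B w) → (c = A w' ∨ c = B w') → False := by
        rintro c (rfl | rfl) (h' | h') <;>
          exact hww (hkey w hw w' hw' (carries_same hok hD hxy hNM (hAB w hw) (hAB w' hw')
            (by tauto)))
      refine ⟨fun hab => hsh ha (hab ▸ hb), ?_⟩
      rintro ⟨e', he', v, L, hv, k, hk, hke⟩
      rw [Set.mem_singleton_iff] at he'
      subst he'
      have ham : a < C.m := by rcases ha with rfl | rfl <;> first
        | exact (hAB w hw).1
        | exact (hAB w hw).2.1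
      have hbm : b < C.m := by rcases hb with rfl | rfl <;> first
        | exact (hAB w' hw').1
        | exact (hAB w' hw').2.1
      rw [Nat.mod_eq_of_lt ham, Nat.mod_eq_of_lt hbm] at hv
      have hc : Carries C t H s(x, y) a b (win H v k) := ⟨ham, hbm, v, L, k, hv, hk, hke, rfl⟩
      have h1 := carries_same hok hD hxy hNM (hAB w hw) hc
        (by rcases ha with rfl | rfl <;> simp)
      have h2 := carries_same hok hD hxy hNM (hAB w' hw') hc
        (by rcases hb with rfl | rfl <;> simp)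
      refine hww (hkey w hw w' hw' ?_)
      rcases h1 with h1 | h1 <;> rcases h2 with h2 | h2
      · exact Or.inl (h1.trans h2.symm)
      · exact Or.inr (by rw [h2, revWin_inv, h1])
      · exact Or.inr (by rw [h2, h1])
      · exact Or.inl (h1.trans h2.symm))
    have hsum : (S.card : ℝ) * (u - t e) ≤ ∑ p ∈ P, C.gainU t {e} p.1 p.2 := by
      rw [Finset.sum_image fun w hw w' hw' => hP_inj ((hmemS w).1 hw) ((hmemS w').1 hw'),
        ← nsmul_eq_mul]
      exact Finset.card_nsmul_le_sum S _ _ fun w hw => hgain w ((hmemS w).1 hw)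
    rw [← ENNReal.ofReal_natCast, ← ENNReal.ofReal_mul (Nat.cast_nonneg _)]
    exact ENNReal.ofReal_le_ofReal (hsum.trans hrect)
  calc (W.encard : ℝ≥0∞) * ENNReal.ofReal (u - t e)
      ≤ ((2 * (S.card : ℕ∞) : ℕ∞) : ℝ≥0∞) * ENNReal.ofReal (u - t e) := by
        gcongr
    _ = 2 * ((S.card : ℝ≥0∞) * ENNReal.ofReal (u - t e)) := by
        push_cast; ring
    _ ≤ _ := by gcongr

end Vale.Agent.P158.NB.Lines
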